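import Vale.Agent.P221.E.Defs
import Vale.Agent.P221.St.IntA
import Vale.Agent.P251.S.Conv4

/-!
# P221, part E (helper509): the filtrations of the statement and the filtrations of the library

* `exists_fl` : if `G` is a filtered subgroup in the sense of `StI.IsExt`, then there is an
  `OpSub` with the same elements which is filtered in the sense of `E.Fl`.
-/

open CategoryTheory MonoidalCategory MonObj Limits Pretriangulated

set_option linter.unusedSectionVars false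

noncomputable section

namespace Vale.Agent.P221.E.H509

open Vale.Agent.P251 Vale.Agent.P251.S Vale.Agent.P251.T Vale.Agent.P251.M
  Vale.Agent.P251.St Vale.Agent.P251.St.SHCat Vale.Agent.P257.St Vale.Agent.P221.StI

section push

universe u

variable {C : Type u} [Category.{0} C] [MonoidalCategory C]

theorem push_unit {A₀ A R Z : C} (ι : 𝟙_ C ≅ A₀) (y : A ⟶ R ⊗ Z) :
    ((λ_ A).inv ≫ ι.hom ▷ A) ≫ (A₀ ◁ y ≫ (α_ A₀ R Z).inv ≫
      ((ι.inv ▷ R) ≫ (λ_ R).hom) ▷ Z) = y := by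
  rw [Category.assoc, ← whisker_exchange_assoc, comp_whiskerRight,
    associator_inv_naturality_left_assoc, ← comp_whiskerRight_assoc, ← comp_whiskerRight,
    ← comp_whiskerRight, Iso.hom_inv_id, id_whiskerRight, Category.id_comp,
    ← leftUnitor_tensor_hom, leftUnitor_naturality, Iso.inv_hom_id_assoc]

theorem comp_whiskerLeft_inv {S A S' A' X B : C} (s : S' ≅ S) (a : A' ≅ A) (y : A ⟶ X)
    (g : S ⊗ X ⟶ B) : (s.inv ⊗ₘ a.inv) ≫ s.hom ▷ A' ≫ S ◁ (a.hom ≫ y) ≫ g = S ◁ y ≫ g := by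
  rw [tensorHom_def', Category.assoc, ← comp_whiskerRight_assoc, Iso.inv_hom_id,
    id_whiskerRight, Category.id_comp, ← MonoidalCategory.whiskerLeft_comp_assoc,
    Iso.inv_hom_id_assoc]

/-- change of spheres -/
theorem push_change {S A S' A' B R Z : C} (s : S' ≅ S) (a : A' ≅ A) (e : S ⊗ R ⟶ R)
    (y : A ⟶ R ⊗ Z) (i : B ⟶ S ⊗ A) :
    i ≫ push e y = (i ≫ (s.inv ⊗ₘ a.inv)) ≫ (S' ◁ (a.hom ≫ y) ≫ (α_ S' R Z).inv ≫
      (s.hom ▷ R ≫ e) ▷ Z) := by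
  rw [Category.assoc, comp_whiskerRight, ← associator_inv_naturality_left_assoc,
    whisker_exchange_assoc, comp_whiskerLeft_inv s a y]
  rfl

end push

variable {T : SHCat} {S : Susp T} {p n : ℕ} {R Z Y : T.C}

/-- subgroups stable under the operations -/
structure GOK (G : ∀ k : ℤ, Pi k (ten R Z) → Prop) : Prop where
  zero : ∀ k, G k 0
  sub : ∀ k (y y' : Pi k (ten R Z)), G k y → G k y' → G k (y - y')
  op : ∀ (j k m : ℤ) (e : Hom (ten (sphere T j) R) R)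
    (u : Hom (sphere T m) (ten (sphere T j) (sphere T k))) (y : Pi k (ten R Z)),
    G k y → G m (operate e u y)

theorem operate_zero {j k m : ℤ} (e : Hom (ten (sphere T j) R) R)
    (u : Hom (sphere T m) (ten (sphere T j) (sphere T k))) :
    operate (Z := Z) e u (0 : Pi k (ten R Z)) = 0 := by
  change u ≫ _ ◁ (0 : _ ⟶ R ⊗ Z) ≫ _ = 0
  rw [MonoidalPreadditive.whiskerLeft_zero, zero_comp, comp_zero]

theorem gok_zero : GOK (R := R) (Z := Z) fun _ y => y = 0 where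
  zero _ := rfl
  sub _ y y' h h' := by rw [h, h', sub_zero]
  op j k m e u y h := by rw [h, operate_zero]

/-- the unit sphere -/
abbrev ι₀ (T : SHCat) : 𝟙_ T.C ≅ sphere T 0 := ((shiftFunctorZero T.C ℤ).app (𝟙_ T.C)).symm

theorem comp_eq_operate {k m : ℤ} (u : Hom (sphere T m) (sphere T k)) (y : Pi k (ten R Z)) :
    u ≫ y = operate (((ι₀ T).inv ▷ R) ≫ (λ_ R).hom)
      (u ≫ (λ_ _).inv ≫ ((ι₀ T).hom ▷ _)) y := by
  have h := push_unit (ι₀ T) y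
  change _ = (u ≫ (λ_ _).inv ≫ ((ι₀ T).hom ▷ _)) ≫ _
  rw [Category.assoc]
  exact congrArg (fun t => u ≫ t) h.symm

/-- the graph is compatible with precomposition -/
theorem IsOnto.comp {θ : ∀ k : ℤ, Pi k (ten R Z) → Pi k (ten R Y) → Prop}
    (h : StI.IsOnto θ) {k m : ℤ} (u : Hom (sphere T m) (sphere T k)) {y : Pi k (ten R Z)}
    {z : Pi k (ten R Y)} (hyz : θ k y z) : θ m (u ≫ y) (u ≫ z) := by
  rw [comp_eq_operate u y, comp_eq_operate u z]
  exact h.op _ _ _ _ _ _ _ hyz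

theorem IsOnto.uniq {θ : ∀ k : ℤ, Pi k (ten R Z) → Pi k (ten R Y) → Prop}
    (h : StI.IsOnto θ) {k : ℤ} {y : Pi k (ten R Z)} {z z' : Pi k (ten R Y)} (h1 : θ k y z)
    (h2 : θ k y z') : z = z' := by
  have h3 := h.sub k y y z z' h1 h2
  have h4 : θ k (nul _ _) (dif z z') := by
    have h5 : dif y y = nul _ _ := sub_self y
    rwa [h5] at h3
  exact sub_eq_zero.1 (h.zero k _ h4)

theorem IsOnto.zero' {θ : ∀ k : ℤ, Pi k (ten R Z) → Pi k (ten R Y) → Prop}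
    (h : StI.IsOnto θ) (k : ℤ) : θ k 0 0 := by
  obtain ⟨y, hy⟩ := h.surj k 0
  have h3 := h.sub k y y 0 0 hy hy
  have h5 : dif y y = 0 := sub_self y
  have h6 : dif (0 : Pi k (ten R Y)) 0 = 0 := sub_self 0
  rwa [h5, h6] at h3

theorem gok_of_onto {θ : ∀ k : ℤ, Pi k (ten R Z) → Pi k (ten R Y) → Prop}
    (h : StI.IsOnto θ) : GOK fun k y => ∃ z, θ k y z where
  zero k := ⟨0, IsOnto.zero' h k⟩
  sub k y y' := by
    rintro ⟨z, hz⟩ ⟨z', hz'⟩
    exact ⟨dif z z', h.sub k y y' z z' hz hz'⟩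
  op j k m e u y := by
    rintro ⟨z, hz⟩
    exact ⟨operate e u z, h.op _ _ _ _ _ _ _ hz⟩

theorem gok_of_isExt {G : ∀ k : ℤ, Pi k (ten R Z) → Prop} (h : IsExt S p n R Z G) : GOK G := by
  cases h with
  | zero => exact gok_zero
  | step _ _ _ h4 => exact gok_of_onto h4

theorem isSphere_tensor {A B : T.C} (hA : IsSphere A) (hB : IsSphere B) : IsSphere (A ⊗ B) := by
  obtain ⟨j, ⟨s⟩⟩ := hA
  obtain ⟨e⟩ := exists_sphere_tensor B j
  exact IsSphere.of_iso (((tensorRight B).mapIso s) ≪≫ e).symm (hB.shift j)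

/-- the subobject -/
def opSub {G : ∀ k : ℤ, Pi k (ten R Z) → Prop} (h : GOK G) : OpSub R Z where
  mem {A} y := ∀ (k : ℤ) (i : sphere T k ⟶ A), G k (i ≫ y)
  zero _ k i := by
    rw [comp_zero]
    exact h.zero k
  sub _ y y' h1 h2 k i := by
    rw [Preadditive.comp_sub]
    exact h.sub k _ _ (h1 k i) (h2 k i)
  comp _ _ u y h1 k i := by
    rw [← Category.assoc]
    exact h1 k _
  op {S A} hS hA e y h1 k i := by
    obtain ⟨j, ⟨s⟩⟩ := hS
    obtain ⟨l, ⟨a⟩⟩ := hA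
    rw [push_change s.symm a.symm e y i]
    exact h.op j l k _ _ _ (h1 l a.inv)

section quo

variable {θ : ∀ k : ℤ, Pi k (ten R Z) → Pi k (ten R Y) → Prop}

theorem ex_of_mem (h : StI.IsOnto θ) {A : T.C} (hA : IsSphere A) {y : A ⟶ R ⊗ Z}
    (hy : (opSub (gok_of_onto h)).mem y) :
    ∃ z : A ⟶ R ⊗ Y, ∀ (k : ℤ) (i : sphere T k ⟶ A), θ k (i ≫ y) (i ≫ z) := by
  obtain ⟨l, ⟨a⟩⟩ := hA
  obtain ⟨z, hz⟩ := hy l a.inv
  refine ⟨a.hom ≫ z, fun k i => ?_⟩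
  have h1 := IsOnto.comp h (i ≫ a.hom) hz
  rwa [Category.assoc, Iso.hom_inv_id_assoc, Category.assoc] at h1

theorem uniq_of_sphere (h : StI.IsOnto θ) {A : T.C} (hA : IsSphere A) {y : A ⟶ R ⊗ Z}
    {z z' : A ⟶ R ⊗ Y} (h1 : ∀ (k : ℤ) (i : sphere T k ⟶ A), θ k (i ≫ y) (i ≫ z))
    (h2 : ∀ (k : ℤ) (i : sphere T k ⟶ A), θ k (i ≫ y) (i ≫ z')) : z = z' := by
  obtain ⟨l, ⟨a⟩⟩ := hA
  have h3 := IsOnto.uniq h (h1 l a.inv) (h2 l a.inv)
  rwa [cancel_epi] at h3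

open Classical in
/-- the map -/
def phi (θ : ∀ k : ℤ, Pi k (ten R Z) → Pi k (ten R Y) → Prop) {A : T.C} (y : A ⟶ R ⊗ Z) :
    A ⟶ R ⊗ Y :=
  if h : ∃ z : A ⟶ R ⊗ Y, ∀ (k : ℤ) (i : sphere T k ⟶ A), θ k (i ≫ y) (i ≫ z) then h.choose
  else 0

theorem phi_eq (h : StI.IsOnto θ) {A : T.C} (hA : IsSphere A) {y : A ⟶ R ⊗ Z}
    {z : A ⟶ R ⊗ Y} (hz : ∀ (k : ℤ) (i : sphere T k ⟶ A), θ k (i ≫ y) (i ≫ z)) :
    phi θ y = z := by
  have h1 : ∃ z : A ⟶ R ⊗ Y, ∀ (k : ℤ) (i : sphere T k ⟶ A), θ k (i ≫ y) (i ≫ z) := ⟨z, hz⟩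
  unfold phi
  rw [dif_pos h1]
  exact uniq_of_sphere h hA h1.choose_spec hz

/-- the quotient -/
def quo (h : StI.IsOnto θ) : Quo (opSub (gok_of_onto h)) Y where
  φ y := phi θ y
  zero hA := phi_eq h hA fun k i => by
    rw [comp_zero, comp_zero]
    exact IsOnto.zero' h k
  sub hA y y' hy hy' := by
    obtain ⟨z, hz⟩ := ex_of_mem h hA hy
    obtain ⟨z', hz'⟩ := ex_of_mem h hA hy'
    rw [phi_eq h hA hz, phi_eq h hA hz']
    refine phi_eq h hA fun k i => ?_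
    rw [Preadditive.comp_sub, Preadditive.comp_sub]
    exact h.sub k _ _ _ _ (hz k i) (hz' k i)
  comp hA hB u y hy := by
    obtain ⟨z, hz⟩ := ex_of_mem h hA hy
    rw [phi_eq h hA hz]
    refine phi_eq h hB fun k i => ?_
    rw [← Category.assoc, ← Category.assoc]
    exact hz k (i ≫ u)
  op {S A} hS hA e y hy := by
    obtain ⟨z, hz⟩ := ex_of_mem h hA hy
    rw [phi_eq h hA hz]
    refine phi_eq h (isSphere_tensor hS hA) fun k i => ?_
    obtain ⟨j, ⟨s⟩⟩ := hS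
    obtain ⟨l, ⟨a⟩⟩ := hA
    rw [push_change s.symm a.symm e y i, push_change s.symm a.symm e z i]
    exact h.op j l k _ _ _ _ (hz l a.inv)
  surj {A} hA z := by
    obtain ⟨l, ⟨a⟩⟩ := hA
    obtain ⟨y, hy⟩ := h.surj l (a.inv ≫ z)
    have h1 : ∀ (k : ℤ) (i : sphere T k ⟶ A), θ k (i ≫ a.hom ≫ y) (i ≫ z) := fun k i => by
      have h2 := IsOnto.comp h (i ≫ a.hom) hy
      rwa [Category.assoc, Category.assoc, Iso.hom_inv_id_assoc] at h2
    exact ⟨a.hom ≫ y, fun k i => ⟨_, h1 k i⟩, phi_eq h ⟨l, ⟨a⟩⟩ h1⟩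

theorem quo_ker_mem (h : StI.IsOnto θ) (hF : GOK fun k y => θ k y (nul _ _)) {A : T.C}
    (hA : IsSphere A) (y : A ⟶ R ⊗ Z) : (quo h).ker.mem y ↔ (opSub hF).mem y := by
  constructor
  · rintro ⟨h1, h2⟩ k i
    obtain ⟨z, hz⟩ := ex_of_mem h hA h1
    have h3 : z = 0 := (phi_eq h hA hz).symm.trans h2
    have h4 := hz k i
    rwa [h3, comp_zero] at h4
  · intro h1
    have h2 : ∀ (k : ℤ) (i : sphere T k ⟶ A), θ k (i ≫ y) (i ≫ (0 : A ⟶ R ⊗ Y)) := fun k i => by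
      rw [comp_zero]
      exact h1 k i
    exact ⟨fun k i => ⟨_, h2 k i⟩, phi_eq h hA h2⟩

end quo

/-- only the elements on spheres matter -/
theorem fl_congr {𝒴 : T.C → Prop} {m : ℕ} {G : OpSub R Z} (h : Fl 𝒴 m G) : ∀ {G' : OpSub R Z},
    (∀ (A : T.C) (y : A ⟶ R ⊗ Z), IsSphere A → (G.mem y ↔ G'.mem y)) → Fl 𝒴 m G' := by
  induction h with
  | zero h => exact fun h' => Fl.zero fun A y hA hy => h A y hA ((h' A y hA).2 hy)
  | @succ m G Y q hY _ ih =>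
    intro G' h'
    let q' : Quo G' Y :=
      { φ := q.φ
        zero := fun hA => q.zero hA
        sub := fun hA _ _ h1 h2 => q.sub hA ((h' _ _ hA).2 h1) ((h' _ _ hA).2 h2)
        comp := fun hA hB u _ h1 => q.comp hA hB u ((h' _ _ hA).2 h1)
        op := fun hS hA e _ h1 => q.op hS hA e ((h' _ _ hA).2 h1)
        surj := fun hA z => by
          obtain ⟨y, h1, h2⟩ := q.surj hA z
          exact ⟨y, (h' _ _ hA).1 h1, h2⟩ }
    exact Fl.succ q' hY (ih fun A y hA => and_congr_left fun _ => h' A y hA)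

theorem exists_fl' {𝒴 : T.C → Prop} (h𝒴 : ∀ Y, IsOrModule S Y → IsFpType S p n Y → 𝒴 Y)
    {G : ∀ k : ℤ, Pi k (ten R Z) → Prop} (h : IsExt S p n R Z G) :
    ∃ m, Fl 𝒴 m (opSub (gok_of_isExt h)) := by
  induction h with
  | zero =>
    refine ⟨0, Fl.zero fun A y hA hy => ?_⟩
    obtain ⟨l, ⟨a⟩⟩ := hA
    have h1 : a.inv ≫ y = 0 := hy l a.inv
    rwa [← cancel_epi a.inv, comp_zero]
  | @step Y θ h1 h2 h3 h4 ih =>
    obtain ⟨m, hm⟩ := ih
    exact ⟨m + 1, Fl.succ (quo h4) (h𝒴 Y h2 h3)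
      (fl_congr hm fun A y hA => (quo_ker_mem h4 _ hA y).symm)⟩

/-- **the filtration in the library form** -/
theorem exists_fl {𝒴 : T.C → Prop} (h𝒴 : ∀ Y, IsOrModule S Y → IsFpType S p n Y → 𝒴 Y)
    {G : ∀ k : ℤ, Pi k (ten R Z) → Prop} (h : IsExt S p n R Z G) (hG : ∀ k y, G k y) :
    ∃ m, Fl 𝒴 m (OpSub.top R Z) := by
  obtain ⟨m, hm⟩ := exists_fl' h𝒴 h
  exact ⟨m, fl_congr hm fun A y hA => ⟨fun _ => trivial, fun _ k i => hG k _⟩⟩

theorem opSub_mem {G : ∀ k : ℤ, Pi k (ten R Z) → Prop} (h : GOK G) (hc : ∀ {k m : ℤ}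
    (u : Hom (sphere T m) (sphere T k)) (y : Pi k (ten R Z)), G k y → G m (u ≫ y)) {k : ℤ}
    (y : Pi k (ten R Z)) : (opSub h).mem y ↔ G k y := by
  constructor
  · intro h1
    have h2 := h1 k (𝟙 _)
    rwa [Category.id_comp] at h2
  · intro h1 m i
    exact hc i y h1

end Vale.Agent.P221.E.H509
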