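import Vale.Agent.P221.E.H817.Clo

/-!
# P221, part E (helper509): filtrations of `R_* X` and isomorphisms `R ≅ R'`

* `Fl.iso` : a filtration of `R_* X` gives one of `R'_* X`.
-/

open CategoryTheory MonoidalCategory MonObj Limits Pretriangulated
open Vale.Agent.P251.S Vale.Agent.P251.T Vale.Agent.P251.M Vale.Agent.P093.Nak

set_option linter.unusedSectionVars false

noncomputable section

universe u

namespace Vale.Agent.P221.E.H509

section

variable {C : Type u} [Category.{0} C] [MonoidalCategory C]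

theorem push_iso {S A R R' X : C} (f : R ≅ R') (e : S ⊗ R' ⟶ R') (y : A ⟶ R' ⊗ X) :
    push e y ≫ f.inv ▷ X = push (S ◁ f.hom ≫ e ≫ f.inv) (y ≫ f.inv ▷ X) := by
  unfold push
  rw [MonoidalCategory.whiskerLeft_comp, Category.assoc, Category.assoc, Category.assoc,
    comp_whiskerRight, associator_inv_naturality_middle_assoc, comp_whiskerRight,
    ← comp_whiskerRight_assoc, ← MonoidalCategory.whiskerLeft_comp, Iso.inv_hom_id,
    MonoidalCategory.whiskerLeft_id, id_whiskerRight, Category.id_comp]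

theorem push_iso' {S A R R' X : C} (f : R ≅ R') (e : S ⊗ R' ⟶ R') (y : A ⟶ R ⊗ X) :
    push (S ◁ f.hom ≫ e ≫ f.inv) y ≫ f.hom ▷ X = push e (y ≫ f.hom ▷ X) := by
  have h := push_iso (X := X) f e (y ≫ f.hom ▷ X)
  rw [Category.assoc, ← comp_whiskerRight, Iso.hom_inv_id, id_whiskerRight, Category.comp_id] at h
  rw [← h, Category.assoc, ← comp_whiskerRight, Iso.inv_hom_id, id_whiskerRight,
    Category.comp_id]

end

variable {𝒯 : Type u} [Category.{0} 𝒯] [Preadditive 𝒯] [HasZeroObject 𝒯]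
    [HasShift 𝒯 ℤ] [∀ n : ℤ, (shiftFunctor 𝒯 n).Additive] [Pretriangulated 𝒯] [IsTriangulated 𝒯]
    [MonoidalCategory 𝒯] [SymmetricCategory 𝒯] [TensorTriangulated 𝒯] [MonoidalClosed 𝒯]
    [HasCoproducts.{0} 𝒯] [HasProducts.{0} 𝒯] [StableCat 𝒯]

variable {R R' X Y : 𝒯} (f : R ≅ R')

/-- the image of `G` -/
def isoSub (G : OpSub R X) : OpSub R' X where
  mem y := G.mem (y ≫ f.inv ▷ X)
  zero hA := by
    rw [zero_comp]
    exact G.zero hA
  sub hA _ _ h h' := by
    rw [Preadditive.sub_comp]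
    exact G.sub hA h h'
  comp hA hB u _ h := by
    rw [Category.assoc]
    exact G.comp hA hB u h
  op hS hA e y h := by
    rw [push_iso f e y]
    exact G.op hS hA _ h

/-- the image of `q` -/
def isoQuo {G : OpSub R X} (q : Quo G Y) : Quo (isoSub f G) Y where
  φ y := q.φ (y ≫ f.inv ▷ X) ≫ f.hom ▷ Y
  zero hA := by rw [zero_comp, q.zero hA, zero_comp]
  sub hA y y' h h' := by
    rw [Preadditive.sub_comp, q.sub hA h h', Preadditive.sub_comp]
  comp hA hB u y h := by
    rw [Category.assoc, q.comp hA hB u h, Category.assoc]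
  op hS hA e y h := by
    rw [push_iso f e y, q.op hS hA _ h, push_iso']
  surj hA z := by
    obtain ⟨y, h1, h2⟩ := q.surj hA (z ≫ f.inv ▷ Y)
    refine ⟨y ≫ f.hom ▷ X, ?_, ?_⟩
    · change G.mem ((y ≫ f.hom ▷ X) ≫ f.inv ▷ X)
      rwa [Category.assoc, ← comp_whiskerRight, Iso.hom_inv_id, id_whiskerRight,
        Category.comp_id]
    · rw [Category.assoc, ← comp_whiskerRight, Iso.hom_inv_id, id_whiskerRight,
        Category.comp_id, h2, Category.assoc, ← comp_whiskerRight, Iso.inv_hom_id,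
        id_whiskerRight, Category.comp_id]

theorem isoQuo_ker {G : OpSub R X} (q : Quo G Y) {A : 𝒯} (y : A ⟶ R' ⊗ X) :
    (isoSub f q.ker).mem y ↔ (isoQuo f q).ker.mem y := by
  refine and_congr_right fun _ => ?_
  change q.φ (y ≫ f.inv ▷ X) = 0 ↔ q.φ (y ≫ f.inv ▷ X) ≫ f.hom ▷ Y = 0
  constructor
  · intro h
    rw [h, zero_comp]
  · intro h
    rwa [← cancel_mono (f.hom ▷ Y), zero_comp]

/-- **transport of filtrations** -/
theorem fl_iso' (f : R ≅ R') {𝒴 : 𝒯 → Prop} {m : ℕ} {G : OpSub R X} (h : Fl 𝒴 m G) : Fl 𝒴 m (isoSub f G) := by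
  induction h with
  | @zero G h0 =>
    refine Fl.zero fun A y hA hy => ?_
    have h1 := h0 A _ hA hy
    rwa [← cancel_mono (f.inv ▷ X), zero_comp]
  | @succ m G Y q hY _ ih =>
    exact Fl.succ (isoQuo f q) hY (ih.congr fun A _ y => (isoQuo_ker f q y).symm)

/-- **transport of filtrations of everything** -/
theorem fl_top_iso (f : R ≅ R') {𝒴 : 𝒯 → Prop} {m : ℕ} (h : Fl 𝒴 m (OpSub.top R X)) :
    Fl 𝒴 m (OpSub.top R' X) :=
  (fl_iso' f h).congr fun _ _ _ => Iff.rfl

end Vale.Agent.P221.E.H509
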