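import Vale.Agent.P221.E.Defs
import Vale.Agent.P221.V.Def
import Vale.Agent.P221.T.Top

/-!
# P221, integral version (helper509): from filtrations of `R_* X` to iterated extensions of systems

* `UU 𝒴 R X W` : the groups `[W, X]` are filtered like `R_* X`;
* `psub S G d` : the subsystem of `S.sys X` given by `G`;
* `Nice S Y` : filtered systems with finite resolutions;
* `fext_of_fl` : the system of a filtered subobject is an iterated extension.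
-/

open CategoryTheory MonoidalCategory MonObj Limits Pretriangulated
open Vale.Agent.P251.S Vale.Agent.P251.T Vale.Agent.P251.M Vale.Agent.P093.Nak
open Vale.Agent.P221.T (Src Sys SrcT FS QQ IsGr RR gc dd)
open Vale.Agent.P221.V

set_option linter.unusedSectionVars false

noncomputable section

universe u

namespace Vale.Agent.P221.E.H509

variable {𝒯 : Type u} [Category.{0} 𝒯] [Preadditive 𝒯] [HasZeroObject 𝒯]
    [HasShift 𝒯 ℤ] [∀ n : ℤ, (shiftFunctor 𝒯 n).Additive] [Pretriangulated 𝒯] [IsTriangulated 𝒯]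
    [MonoidalCategory 𝒯] [SymmetricCategory 𝒯] [TensorTriangulated 𝒯] [MonoidalClosed 𝒯]
    [HasCoproducts.{0} 𝒯] [HasProducts.{0} 𝒯] [StableCat 𝒯]

/-! ### `In` and `Rel` -/

section

variable {R X Y W W' : 𝒯} {G : OpSub R X}

theorem in_pre (f : W' ⟶ W) {a : W ⟶ X} (h : G.In a) : G.In (f ≫ a) := fun A hA w => by
  rw [MonoidalCategory.whiskerLeft_comp, ← Category.assoc]
  exact h A hA _

theorem in_zero : G.In (0 : W ⟶ X) := fun A hA w => by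
  rw [MonoidalPreadditive.whiskerLeft_zero, comp_zero]
  exact G.zero hA

theorem in_sub {a b : W ⟶ X} (ha : G.In a) (hb : G.In b) : G.In (a - b) := fun A hA w => by
  have h1 : R ◁ (a - b) = R ◁ a - R ◁ b := (tensorLeft R).map_sub
  rw [h1, Preadditive.comp_sub]
  exact G.sub hA (ha A hA w) (hb A hA w)

/-- the subgroup of `[W, X]` -/
def inSub (G : OpSub R X) (W : 𝒯) : AddSubgroup (W ⟶ X) :=
  AddSubgroup.ofSub {a | G.In a} ⟨0, in_zero⟩ fun _ ha _ hb => by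
    rw [← sub_eq_add_neg]
    exact in_sub ha hb

theorem mem_inSub {a : W ⟶ X} : a ∈ inSub G W ↔ G.In a := Iff.rfl

variable (q : Quo G Y)

theorem rel_pre (f : W' ⟶ W) {a : W ⟶ X} {b : W ⟶ Y} (h : q.Rel a b) :
    q.Rel (f ≫ a) (f ≫ b) := fun A hA w => by
  have h1 := h A hA (w ≫ R ◁ f)
  rw [Category.assoc, Category.assoc, ← MonoidalCategory.whiskerLeft_comp,
    ← MonoidalCategory.whiskerLeft_comp] at h1
  exact h1

theorem rel_sub {a a' : W ⟶ X} {b b' : W ⟶ Y} (ha : G.In a) (ha' : G.In a') (h : q.Rel a b)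
    (h' : q.Rel a' b') : q.Rel (a - a') (b - b') := fun A hA w => by
  have h1 : R ◁ (a - a') = R ◁ a - R ◁ a' := (tensorLeft R).map_sub
  have h2 : R ◁ (b - b') = R ◁ b - R ◁ b' := (tensorLeft R).map_sub
  rw [h1, h2, Preadditive.comp_sub, Preadditive.comp_sub, q.sub hA (ha A hA w) (ha' A hA w),
    h A hA w, h' A hA w]

theorem rel_zero : q.Rel (0 : W ⟶ X) (0 : W ⟶ Y) := fun A hA w => by
  rw [MonoidalPreadditive.whiskerLeft_zero, MonoidalPreadditive.whiskerLeft_zero, comp_zero,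
    comp_zero, q.zero hA]

theorem rel_add {a a' : W ⟶ X} {b b' : W ⟶ Y} (ha : G.In a) (ha' : G.In a') (h : q.Rel a b)
    (h' : q.Rel a' b') : q.Rel (a + a') (b + b') := by
  have h1 := rel_sub q in_zero ha' (rel_zero q) h'
  have h2 : G.In (0 - a') := in_sub in_zero ha'
  have h3 := rel_sub q ha h2 h h1
  rwa [zero_sub, zero_sub, sub_neg_eq_add, sub_neg_eq_add] at h3

theorem ker_in {a : W ⟶ X} : q.ker.In a ↔ G.In a ∧ q.Rel a 0 := by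
  constructor
  · intro h
    exact ⟨fun A hA w => (h A hA w).1, fun A hA w => by
      rw [MonoidalPreadditive.whiskerLeft_zero, comp_zero]
      exact (h A hA w).2⟩
  · rintro ⟨h1, h2⟩ A hA w
    have h3 := h2 A hA w
    rw [MonoidalPreadditive.whiskerLeft_zero, comp_zero] at h3
    exact ⟨h1 A hA w, h3⟩

/-- the value -/
def relFn (hW : ∀ a : W ⟶ X, G.In a → ∃! b : W ⟶ Y, q.Rel a b) (a : inSub G W) : W ⟶ Y :=
  (hW a.1 a.2).choose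

theorem relFn_rel (hW : ∀ a : W ⟶ X, G.In a → ∃! b : W ⟶ Y, q.Rel a b) (a : inSub G W) :
    q.Rel a.1 (relFn q hW a) := (hW a.1 a.2).choose_spec.1

theorem relFn_eq (hW : ∀ a : W ⟶ X, G.In a → ∃! b : W ⟶ Y, q.Rel a b) {a : inSub G W}
    {b : W ⟶ Y} (h : q.Rel a.1 b) : relFn q hW a = b :=
  (hW a.1 a.2).unique (relFn_rel q hW a) h

/-- the map of the groups -/
def relMap (hW : ∀ a : W ⟶ X, G.In a → ∃! b : W ⟶ Y, q.Rel a b) : inSub G W →+ (W ⟶ Y) :=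
  AddMonoidHom.mk' (relFn q hW) fun a a' => relFn_eq q hW
    (rel_add q a.2 a'.2 (relFn_rel q hW a) (relFn_rel q hW a'))

theorem relMap_rel (hW : ∀ a : W ⟶ X, G.In a → ∃! b : W ⟶ Y, q.Rel a b) (a : inSub G W) :
    q.Rel a.1 (relMap q hW a) := relFn_rel q hW a

theorem relMap_eq (hW : ∀ a : W ⟶ X, G.In a → ∃! b : W ⟶ Y, q.Rel a b) {a : inSub G W}
    {b : W ⟶ Y} (h : q.Rel a.1 b) : relMap q hW a = b := relFn_eq q hW h

end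

/-- the groups `[W, X]` are filtered like `R_* X` -/
structure UU (𝒴 : 𝒯 → Prop) (R X W : 𝒯) : Prop where
  bot : ∀ {G : OpSub R X}, Fl 𝒴 0 G → ∀ a : W ⟶ X, G.In a → a = 0
  ex : ∀ {m : ℕ} {G : OpSub R X} {Y : 𝒯} (q : Quo G Y), 𝒴 Y → Fl 𝒴 m q.ker → ∀ a : W ⟶ X,
    G.In a → ∃! b : W ⟶ Y, q.Rel a b
  onto : ∀ {m : ℕ} {G : OpSub R X} {Y : 𝒯} (q : Quo G Y), 𝒴 Y → Fl 𝒴 m q.ker → ∀ b : W ⟶ Y,
    ∃ a : W ⟶ X, G.In a ∧ q.Rel a b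

/-! ### subsystems -/

variable {p n : ℕ} {P R X Y : 𝒯} (S : SrcT p n P)

/-- the subsystem given by `G` -/
def psub (G : OpSub R X) (d : ℤ) : PSub d (S.sys X) where
  A k := inSub G (P⟦k⟧)
  Pi k := inSub G ((𝟙_ 𝒯)⟦k⟧)
  ev _ h := in_pre (S.u⟦_⟧') h
  act {k m l} h a γ _ _ ha := by
    change G.In (gc h γ a)
    unfold gc
    exact in_pre _ (in_pre _ ha)

theorem A'_le {G : OpSub R X} {d : ℤ} (k : ℤ) : (psub S G d).A' k ≤ inSub G (P⟦k⟧) := by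
  intro a ha
  rcases ((psub S G d).mem_A').1 ha with ⟨_, h⟩ | ⟨_, h⟩
  · exact h
  · rw [h]
    exact AddSubgroup.zero_mem _

theorem Pi'_le {G : OpSub R X} {d : ℤ} (k : ℤ) :
    (psub S G d).Pi' k ≤ inSub G ((𝟙_ 𝒯)⟦k⟧) := by
  intro a ha
  rcases ((psub S G d).mem_Pi').1 ha with ⟨_, h⟩ | ⟨_, h⟩
  · exact h
  · rw [h]
    exact AddSubgroup.zero_mem _

variable [Fact p.Prime]

/-- the underlying element -/
def inA {G : OpSub R X} {d : ℤ} (k : ℤ) : (psub S G d).sys.A k →+ inSub G (P⟦k⟧) :=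
  AddSubgroup.inclusion (A'_le S k)

/-- the underlying element -/
def inP {G : OpSub R X} {d : ℤ} (k : ℤ) : (psub S G d).sys.Pi k →+ inSub G ((𝟙_ 𝒯)⟦k⟧) :=
  AddSubgroup.inclusion (Pi'_le S k)

theorem inA_val {G : OpSub R X} {d k : ℤ} (a : (psub S G d).sys.A k) :
    (inA S k a).1 = (psub S G d).vA k a := rfl

theorem inP_val {G : OpSub R X} {d k : ℤ} (a : (psub S G d).sys.Pi k) :
    (inP S k a).1 = (psub S G d).vP k a := rfl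

/-- the map on the systems -/
def quoMap {G : OpSub R X} (q : Quo G Y) (d : ℤ)
    (hP : ∀ (k : ℤ) (a : P⟦k⟧ ⟶ X), G.In a → ∃! b : P⟦k⟧ ⟶ Y, q.Rel a b)
    (hI : ∀ (k : ℤ) (a : (𝟙_ 𝒯)⟦k⟧ ⟶ X), G.In a → ∃! b : (𝟙_ 𝒯)⟦k⟧ ⟶ Y, q.Rel a b) :
    PMap d (psub S G d).sys (S.sys Y) 0 where
  f {k k'} h := by
    obtain rfl : k = k' := by omega
    exact (relMap q (hP k)).comp (inA S k)
  g {k k'} h := by
    obtain rfl : k = k' := by omega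
    exact (relMap q (hI k)).comp (inP S k)
  ev {k k'} h a hk := by
    obtain rfl : k = k' := by omega
    have h1 := rel_pre q (S.u⟦k⟧') (relMap_rel q (hP k) (inA S k a))
    exact (relMap_eq q (hI k) (a := inP S k ((psub S G d).sys.ev k a)) h1).symm
  act {k m l k' l'} h h₁ h₂ h₃ a γ hk hl := by
    obtain rfl : k = k' := by omega
    obtain rfl : l = l' := by omega
    have h1 : (inA S l ((psub S G d).sys.act h a γ)).1 =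
        (shiftFunctorAdd' 𝒯 m k l (by omega)).hom.app P ≫ γ⟦k⟧' ≫ (inA S k a).1 :=
      (psub S G d).vA_act h hl a γ
    have h2 := rel_pre q ((shiftFunctorAdd' 𝒯 m k l (by omega)).hom.app P)
      (rel_pre q (γ⟦k⟧') (relMap_rel q (hP k) (inA S k a)))
    rw [← h1] at h2
    exact relMap_eq q (hP l) h2

variable {S}

theorem quoMap_f {G : OpSub R X} (q : Quo G Y) {d : ℤ}
    {hP : ∀ (k : ℤ) (a : P⟦k⟧ ⟶ X), G.In a → ∃! b : P⟦k⟧ ⟶ Y, q.Rel a b}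
    {hI : ∀ (k : ℤ) (a : (𝟙_ 𝒯)⟦k⟧ ⟶ X), G.In a → ∃! b : (𝟙_ 𝒯)⟦k⟧ ⟶ Y, q.Rel a b} {k : ℤ}
    (a : (psub S G d).sys.A k) :
    (quoMap S q d hP hI).f (add_zero k) a = relMap q (hP k) (inA S k a) := rfl

theorem quoMap_g {G : OpSub R X} (q : Quo G Y) {d : ℤ}
    {hP : ∀ (k : ℤ) (a : P⟦k⟧ ⟶ X), G.In a → ∃! b : P⟦k⟧ ⟶ Y, q.Rel a b}
    {hI : ∀ (k : ℤ) (a : (𝟙_ 𝒯)⟦k⟧ ⟶ X), G.In a → ∃! b : (𝟙_ 𝒯)⟦k⟧ ⟶ Y, q.Rel a b} {k : ℤ}
    (a : (psub S G d).sys.Pi k) :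
    (quoMap S q d hP hI).g (add_zero k) a = relMap q (hI k) (inP S k a) := rfl

/-- the map is onto -/
theorem quoMap_onto {G : OpSub R X} (q : Quo G Y) {d : ℤ}
    {hP : ∀ (k : ℤ) (a : P⟦k⟧ ⟶ X), G.In a → ∃! b : P⟦k⟧ ⟶ Y, q.Rel a b}
    {hI : ∀ (k : ℤ) (a : (𝟙_ 𝒯)⟦k⟧ ⟶ X), G.In a → ∃! b : (𝟙_ 𝒯)⟦k⟧ ⟶ Y, q.Rel a b}
    (hP' : ∀ (k : ℤ) (b : P⟦k⟧ ⟶ Y), ∃ a : P⟦k⟧ ⟶ X, G.In a ∧ q.Rel a b)
    (hI' : ∀ (k : ℤ) (b : (𝟙_ 𝒯)⟦k⟧ ⟶ Y), ∃ a : (𝟙_ 𝒯)⟦k⟧ ⟶ X, G.In a ∧ q.Rel a b) :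
    (quoMap S q d hP hI).Onto := by
  constructor
  · intro k hk b
    obtain ⟨a, ha, hab⟩ := hP' k b
    exact ⟨(psub S G d).el hk a ha, relMap_eq q (hP k) hab⟩
  · intro k hk b
    obtain ⟨a, ha, hab⟩ := hI' k b
    exact ⟨(psub S G d).elP hk a ha, relMap_eq q (hI k) hab⟩

theorem ker_hf {G : OpSub R X} (q : Quo G Y) {d : ℤ}
    {hP : ∀ (k : ℤ) (a : P⟦k⟧ ⟶ X), G.In a → ∃! b : P⟦k⟧ ⟶ Y, q.Rel a b}
    {hI : ∀ (k : ℤ) (a : (𝟙_ 𝒯)⟦k⟧ ⟶ X), G.In a → ∃! b : (𝟙_ 𝒯)⟦k⟧ ⟶ Y, q.Rel a b} {k k' : ℤ} (h : k + 0 = k') (hk : d ≤ k')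
    (a : (quoMap S q d hP hI).ker.sys.A k) :
    (((quoMap S q d hP hI).ker.incl).comp (psub S G d).incl).f h a ∈ (psub S q.ker d).A k' := by
  obtain rfl : k = k' := by omega
  have h1 := (quoMap S q d hP hI).ker.vA_mem hk a
  rw [PMap.mem_ker, quoMap_f] at h1
  have h2 := relMap_rel q (hP k) (inA S k ((quoMap S q d hP hI).ker.vA k a))
  rw [h1] at h2
  exact (ker_in q).2 ⟨(inA S k ((quoMap S q d hP hI).ker.vA k a)).2, h2⟩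

theorem ker_hg {G : OpSub R X} (q : Quo G Y) {d : ℤ}
    {hP : ∀ (k : ℤ) (a : P⟦k⟧ ⟶ X), G.In a → ∃! b : P⟦k⟧ ⟶ Y, q.Rel a b}
    {hI : ∀ (k : ℤ) (a : (𝟙_ 𝒯)⟦k⟧ ⟶ X), G.In a → ∃! b : (𝟙_ 𝒯)⟦k⟧ ⟶ Y, q.Rel a b} {k k' : ℤ} (h : k + 0 = k') (hk : d ≤ k')
    (a : (quoMap S q d hP hI).ker.sys.Pi k) :
    (((quoMap S q d hP hI).ker.incl).comp (psub S G d).incl).g h a ∈ (psub S q.ker d).Pi k' := by
  obtain rfl : k = k' := by omega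
  have h1 := (quoMap S q d hP hI).ker.vP_mem hk a
  rw [PMap.mem_kerP, quoMap_g] at h1
  have h2 := relMap_rel q (hI k) (inP S k ((quoMap S q d hP hI).ker.vP k a))
  rw [h1] at h2
  exact (ker_in q).2 ⟨(inP S k ((quoMap S q d hP hI).ker.vP k a)).2, h2⟩

/-- the kernel -/
def kerMap {G : OpSub R X} (q : Quo G Y) {d : ℤ}
    {hP : ∀ (k : ℤ) (a : P⟦k⟧ ⟶ X), G.In a → ∃! b : P⟦k⟧ ⟶ Y, q.Rel a b}
    {hI : ∀ (k : ℤ) (a : (𝟙_ 𝒯)⟦k⟧ ⟶ X), G.In a → ∃! b : (𝟙_ 𝒯)⟦k⟧ ⟶ Y, q.Rel a b} :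
    PMap d (quoMap S q d hP hI).ker.sys (psub S q.ker d).sys 0 :=
  (psub S q.ker d).cod ((quoMap S q d hP hI).ker.incl.comp (psub S G d).incl) (ker_hf q) (ker_hg q)

theorem kerMap_vA {G : OpSub R X} (q : Quo G Y) {d : ℤ}
    {hP : ∀ (k : ℤ) (a : P⟦k⟧ ⟶ X), G.In a → ∃! b : P⟦k⟧ ⟶ Y, q.Rel a b}
    {hI : ∀ (k : ℤ) (a : (𝟙_ 𝒯)⟦k⟧ ⟶ X), G.In a → ∃! b : (𝟙_ 𝒯)⟦k⟧ ⟶ Y, q.Rel a b} {k : ℤ} (hk : d ≤ k)
    (a : (quoMap S q d hP hI).ker.sys.A k) :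
    (psub S q.ker d).vA k ((kerMap q).f (add_zero k) a) =
      (psub S G d).vA k ((quoMap S q d hP hI).ker.vA k a) :=
  PSub.vA_cod _ _ (ker_hf q) (ker_hg q) _ hk a

theorem kerMap_vP {G : OpSub R X} (q : Quo G Y) {d : ℤ}
    {hP : ∀ (k : ℤ) (a : P⟦k⟧ ⟶ X), G.In a → ∃! b : P⟦k⟧ ⟶ Y, q.Rel a b}
    {hI : ∀ (k : ℤ) (a : (𝟙_ 𝒯)⟦k⟧ ⟶ X), G.In a → ∃! b : (𝟙_ 𝒯)⟦k⟧ ⟶ Y, q.Rel a b} {k : ℤ} (hk : d ≤ k)
    (a : (quoMap S q d hP hI).ker.sys.Pi k) :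
    (psub S q.ker d).vP k ((kerMap q).g (add_zero k) a) =
      (psub S G d).vP k ((quoMap S q d hP hI).ker.vP k a) :=
  PSub.vP_cod _ _ (ker_hf q) (ker_hg q) _ hk a

theorem kerMap_inj {G : OpSub R X} (q : Quo G Y) {d : ℤ}
    {hP : ∀ (k : ℤ) (a : P⟦k⟧ ⟶ X), G.In a → ∃! b : P⟦k⟧ ⟶ Y, q.Rel a b}
    {hI : ∀ (k : ℤ) (a : (𝟙_ 𝒯)⟦k⟧ ⟶ X), G.In a → ∃! b : (𝟙_ 𝒯)⟦k⟧ ⟶ Y, q.Rel a b} :
    (kerMap (S := S) (hP := hP) (hI := hI) (d := d) q).Inj := by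
  constructor
  · intro k hk a ha
    have h1 := kerMap_vA q hk a
    rw [ha, map_zero] at h1
    exact (quoMap S q d hP hI).ker.vA_inj ((psub S G d).vA_inj
      (h1.symm.trans (by rw [map_zero, map_zero])))
  · intro k hk a ha
    have h1 := kerMap_vP q hk a
    rw [ha, map_zero] at h1
    exact (quoMap S q d hP hI).ker.vP_inj ((psub S G d).vP_inj
      (h1.symm.trans (by rw [map_zero, map_zero])))

theorem kerMap_onto {G : OpSub R X} (q : Quo G Y) {d : ℤ}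
    {hP : ∀ (k : ℤ) (a : P⟦k⟧ ⟶ X), G.In a → ∃! b : P⟦k⟧ ⟶ Y, q.Rel a b}
    {hI : ∀ (k : ℤ) (a : (𝟙_ 𝒯)⟦k⟧ ⟶ X), G.In a → ∃! b : (𝟙_ 𝒯)⟦k⟧ ⟶ Y, q.Rel a b} :
    (kerMap (S := S) (hP := hP) (hI := hI) (d := d) q).Onto := by
  constructor
  · intro k hk a
    have h1 := (psub S q.ker d).vA_mem hk a
    obtain ⟨h2, h3⟩ := (ker_in q).1 h1
    have h4 : (quoMap S q d hP hI).f (add_zero k)
        ((psub S G d).el hk ((psub S q.ker d).vA k a) h2) = 0 := relMap_eq q (hP k) h3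
    refine ⟨(quoMap S q d hP hI).ker.el hk _ (PMap.mem_ker.2 h4), ?_⟩
    apply (psub S q.ker d).vA_inj
    rw [kerMap_vA q hk]
    rfl
  · intro k hk a
    have h1 := (psub S q.ker d).vP_mem hk a
    obtain ⟨h2, h3⟩ := (ker_in q).1 h1
    have h4 : (quoMap S q d hP hI).g (add_zero k)
        ((psub S G d).elP hk ((psub S q.ker d).vP k a) h2) = 0 := relMap_eq q (hI k) h3
    refine ⟨(quoMap S q d hP hI).ker.elP hk _ (PMap.mem_kerP.2 h4), ?_⟩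
    apply (psub S q.ker d).vP_inj
    rw [kerMap_vP q hk]
    rfl

/-! ### the main theorem -/

variable (S)

/-- filtered systems with finite resolutions -/
def Nice (Y : 𝒯) : Prop :=
  ∃ d₀ : ℤ, ∀ d ≥ d₀, ∃ i₀ : ℕ, ∀ i ≥ i₀, ∃ (N : Type) (_ : AddCommGroup N)
    (_ : Module (RR p n) N) (gr : ℤ → ℤ → AddSubgroup N), IsGr p n gr ∧ QQ p n d i N gr ∧
      Nonempty (FS (S.sys Y) gr d)

/-- `FExt` only depends on the degrees `≥ d` -/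
def FExtIso (p n : ℕ) [Fact p.Prime] : Prop :=
  ∀ {S : Src p n} {d : ℤ} {i m : ℕ} {X X' : Sys S} (φ : PMap d X X' 0), φ.Inj → φ.Onto →
    FExt d i m X' → FExt d i m X

/-- **the system of a filtered subobject is an iterated extension** -/
theorem fext_of_fl (hiso : FExtIso p n) {𝒴 : 𝒯 → Prop} (hP : ∀ k : ℤ, UU 𝒴 R X (P⟦k⟧))
    (hI : ∀ k : ℤ, UU 𝒴 R X ((𝟙_ 𝒯)⟦k⟧)) (h𝒴 : ∀ Y, 𝒴 Y → Nice S Y) {m : ℕ} {G : OpSub R X}
    (hG : Fl 𝒴 m G) : ∃ d₀ : ℤ, ∀ d ≥ d₀, ∃ i₀ : ℕ, ∀ i ≥ i₀, FExt d i m (psub S G d).sys := by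
  induction hG with
  | zero h =>
    refine ⟨0, fun d _ => ⟨0, fun i _ => ?_⟩⟩
    constructor
    · intro k hk a
      apply (psub S _ d).vA_inj
      rw [map_zero]
      exact (hP k).bot (Fl.zero h) _ ((psub S _ d).vA_mem hk a)
    · intro k hk a
      apply (psub S _ d).vP_inj
      rw [map_zero]
      exact (hI k).bot (Fl.zero h) _ ((psub S _ d).vP_mem hk a)
  | @succ m G Y q hY hq ih =>
    obtain ⟨d₁, h₁⟩ := ih
    obtain ⟨d₂, h₂⟩ := h𝒴 Y hY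
    refine ⟨max d₁ d₂, fun d hd => ?_⟩
    obtain ⟨i₁, h₁'⟩ := h₁ d (le_trans (le_max_left _ _) hd)
    obtain ⟨i₂, h₂'⟩ := h₂ d (le_trans (le_max_right _ _) hd)
    refine ⟨max i₁ i₂, fun i hi => ?_⟩
    obtain ⟨N, _, _, gr, h3, h4, h5⟩ := h₂' i (le_trans (le_max_right _ _) hi)
    refine ⟨S.sys Y, quoMap S q d (fun k => (hP k).ex q hY hq) (fun k => (hI k).ex q hY hq), N,
      _, _, gr, quoMap_onto q (fun k => (hP k).onto q hY hq) (fun k => (hI k).onto q hY hq), h3,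
      h4, h5, ?_⟩
    exact hiso (kerMap q) (kerMap_inj q) (kerMap_onto q)
      (h₁' i (le_trans (le_max_left _ _) hi))

end Vale.Agent.P221.E.H509
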