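import Vale.Agent.P221.E.H509.Bridge
import Vale.Agent.P221.E.H509.Iso
import Vale.Agent.P221.E.H509.Sys
import Vale.Agent.P221.E.H903.F
import Vale.Agent.P221.V.Ext
import Vale.Agent.P221.V.H520.End
import Vale.Agent.P221.Loc.Int
import Vale.Agent.P221.T.H598.HBfin
import Vale.Agent.P221.H746.ZBP2

/-!
# P221, integral version (helper509): the theorem on extensions

* `Quot b n` : the class of the quotients; `quot_of_fp` : it contains the oriented modules of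
  fp-type at most `n`;
* `thick_of_fl` : the theorem on extensions, in the library form;
* `hExt` : the theorem on extensions, at the statement layer;
* `thick_of_ev` : the final theorem.
-/

open CategoryTheory MonoidalCategory MonObj Limits Pretriangulated

set_option linter.unusedSectionVars false

noncomputable section

namespace Vale.Agent.P221.E.H509

open Vale.Agent.P251 Vale.Agent.P251.S Vale.Agent.P251.T Vale.Agent.P251.M Vale.Agent.P251.F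
  Vale.Agent.P251.I EvenSpheres Vale.Agent.P257.H702 Vale.Agent.P257.H80 Vale.Agent.P251.Q
  Vale.Agent.P251.St Vale.Agent.P251.St.SHCat Vale.Agent.P257.St
  Vale.Agent.P221.H746 Vale.Agent.P093.N0 Vale.Agent.P221.V
open Vale.Agent.P221.T (BPS SrcT Src Sys FS grR Lead OpAlg Coor Env KK PiM FinZp FormD)

section lib

variable {𝒯 : Type*} [Category.{0} 𝒯] [Preadditive 𝒯] [HasZeroObject 𝒯]
    [HasShift 𝒯 ℤ] [∀ n : ℤ, (shiftFunctor 𝒯 n).Additive] [Pretriangulated 𝒯] [IsTriangulated 𝒯]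
    [MonoidalCategory 𝒯] [SymmetricCategory 𝒯] [TensorTriangulated 𝒯] [MonoidalClosed 𝒯]
    [HasCoproducts.{0} 𝒯] [HasProducts.{0} 𝒯] [StableCat 𝒯]

variable {p n : ℕ} [hp : Fact p.Prime] {P R W X : 𝒯}

theorem fExtIso : FExtIso p n := fun φ hi ho h => FExt.of_iso φ ho hi h

/-- the system of everything -/
theorem fext_top (S : SrcT p n P) {d : ℤ} {i m : ℕ}
    (h : FExt d i m (psub S (OpSub.top R X) d).sys) : FExt d i m (S.sys X) :=
  FExt.of_iso' (psub S (OpSub.top R X) d).incl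
    ⟨fun _ hk a => ⟨(psub S (OpSub.top R X) d).el hk a fun _ _ _ => trivial, rfl⟩,
      fun _ hk a => ⟨(psub S (OpSub.top R X) d).elP hk a fun _ _ _ => trivial, rfl⟩⟩
    (psub S (OpSub.top R X) d).incl_inj h

variable [MonObj R] [IsCommMonObj R]

/-- the class of the quotients -/
def Quot (b : BPS p R P W) (n : ℕ) (Y : 𝒯) : Prop :=
  (∃ (M : ModStr R Y) (hY : H395.PComplete p Y), b.FinGen n M hY) ∧ ∃ m : ℤ, Conn m Y

/-- **the theorem on extensions, in the library form** -/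
theorem thick_of_fl (b : BPS p R P W) {ld : Lead p n} {S : SrcT p n P} {O : OpAlg ld S.src}
    {B : 𝒯} {q : P ⟶ B} {TB : ∀ d, FS (S.sys B) (grR p n) d} (E : Env S O q TB)
    (hL : LiftsV S q)
    (hco : ∀ (Y : 𝒯) (M : ModStr R Y) (hY : H395.PComplete p Y),
      letI : Module (KK p) (PiM Y) := b.mdl M hY
      Nonempty (Coor O (S.sys Y) (PiM Y) (PiM.gr Y)))
    {C : 𝒯} {i : 𝟙_ 𝒯 ⟶ C} {δ : C ⟶ (𝟙_ 𝒯)⟦(1 : ℤ)⟧}
    (hC : Triangle.mk ((p : ℤ) • 𝟙 (𝟙_ 𝒯)) i δ ∈ distTriang 𝒯)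
    (hX : H395.PComplete p X) {m₀ : ℤ} (hm : Conn m₀ X) {m : ℕ}
    (hF : Fl (Quot b n) m (OpSub.top R X)) (hP : ∀ k : ℤ, UU (Quot b n) R X (P⟦k⟧))
    (hI : ∀ k : ℤ, UU (Quot b n) R X ((𝟙_ 𝒯)⟦k⟧)) : Vale.Agent.P221.T.Thick B X := by
  obtain ⟨d, h1⟩ := fext_of_fl S fExtIso hP hI
    (fun Y ⟨⟨M, hY, hfg⟩, _⟩ => nice_of_finGen b M hY hfg (hco Y M hY)) hF
  obtain ⟨i₀, h2⟩ := h1 d le_rfl
  exact thick_of_env E hL hX (fext_top S (h2 i₀ le_rfl)) hm fun k =>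
    finZp_of_fl (fun h => (hI k).bot h) (fun q h h' => (hI k).ex q h h')
      (fun q h h' => (hI k).onto q h h')
      (fun Y hY => Vale.Agent.P221.T.H769.uniq_of_dc (H509.dc_hom hC hY.1.choose_spec.choose _))
      (fun Y ⟨⟨M, hY, hfg⟩, _⟩ => finZp_of_finGen b M hY hfg (hco Y M hY) k) hF

end lib

section st

variable {T : SHCat} {S : Susp T} {p n : ℕ} [hp : Fact p.Prime]

/-- oriented modules of fp-type at most `n` -/
theorem quot_of_fp {D : MUData T.C} (hD : MUUniv (P251.M.lineIso S.toSpaceFunctor) D)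
    (U : MUFam (P251.M.lineIso S.toSpaceFunctor) D) {P : RingSp T} {o : P251.St.Oriented S P}
    {φ : P257.St.GHom S p P} (hP : IsBrownPeterson p o φ) {Pc W : T.C} (b : BPS p P.obj Pc W)
    (hb : P221.H509.Matches b φ) {Y : T.C} (h1 : StI.IsOrModule S Y)
    (h2 : StI.IsFpType S p n Y) : Quot b n Y := by
  obtain ⟨R, o', a, ha⟩ := h1
  obtain ⟨u, hu, -⟩ := U.exists_mapS o'
  have ha' : P221.St.IsAct a := ha
  have M : ModStr D.R Y := H606.res u (H924.modOf ha')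
  obtain ⟨hc, hbb, P₁, o₁, φ₁, V, hP₁, hV, hf⟩ := Loc.isFpTypeI_of h2
  obtain ⟨b₁, hb₁, ho₁⟩ := U.exists_mapS o₁
  have hBP := isBPMon_of_isBrownPeterson ptypOut hD U ptypIn hP₁ ho₁
  obtain ⟨N⟩ := H606.exists_modStr_of_mu' hD hBP hc M
  obtain ⟨-, P₂, o₂, φ₂, a₂, hP₂, ha₂, hfg⟩ : P221.St.IsBPFinite S p n Y :=
    H395.Fp.isBPFinite_of_isFpModule hp.out
      ⟨hc, hbb, P₁, o₁, φ₁, N.act, V, hP₁, H924.isAct_of_modStr N, hV, hf⟩
  obtain ⟨f, _, _, hφ⟩ := P221.H509.exists_bp_iso hP₂ hP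
  have h3 := P221.H509.isAct_comp (P' := P) ha₂ f.inv
  exact ⟨⟨H924.modOf h3, hc,
    P221.H509.finGen_of_isFG h3 hc b hb (P221.H509.isFG_comp f hφ hfg)⟩, hbb⟩

/-- **the theorem on extensions** -/
theorem hExt (S : Susp T) (p n : ℕ) [hp : Fact p.Prime] : Loc.HExt S p n := by
  intro B Y hB hY hbb R o φ G hR hExt hG
  obtain ⟨D, hD, hA, ⟨U⟩⟩ := H924.exists_mu S.toSpaceFunctor (P251.M.lineIso S.toSpaceFunctor)
  obtain ⟨P, o', φ', x, a, q, hP, hx, hBc, ha, hq, hmod⟩ := hB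
  obtain ⟨b₀, _, κ, Φ, hκ, hφ, hΦ⟩ := P221.H509.exists_bpOut' hD hA U hP
  obtain ⟨Pc, W, b, hv⟩ := Vale.Agent.P221.T.H598.exists_BPS hD hA hκ.mon hΦ
  obtain ⟨C, i, δ, hC⟩ := distinguished_cocone_triangle ((p : ℤ) • 𝟙 (𝟙_ T.C))
  obtain ⟨h1, h2⟩ := hmod C ⟨i, δ, hC⟩
  have h3 : H924.QOut n x κ ((H924.modOf ha).tensorRight C) (q ≫ H924.rdM i B) :=
    H924.qOut_of_mod hκ.good hκ.surj hκ.ker hC (H924.modOf ha) hq h1 h2
  obtain ⟨F, -, -⟩ := Vale.Agent.P221.T.H924.exists_formD b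
    (Vale.Agent.P221.T.H924.vHyp_of_phi b hκ hΦ hv) (H924.modOf ha) hBc hq hκ hx hC h3
  obtain ⟨ld, S', O, TB, E, hL, hco⟩ := exists_envV (Vale.Agent.P221.T.specSrc p n) b
    (H136.top_bps hD hκ.mon b) F (H136.par hD hκ.mon b)
  obtain ⟨f, -⟩ := P221.H509.exists_bp_iso hR hP
  obtain ⟨m, hm⟩ := exists_fl (𝒴 := Quot b n) (fun Z h h' => quot_of_fp hD U hP b
    (P221.H509.matches_of_vPhi b hφ hv) h h') hExt hG
  have hF := fl_top_iso f hm
  obtain ⟨m₀, hm₀⟩ := hbb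
  have h𝒴 : ∀ Z, Quot b n Z → Cls p P.obj Z := fun Z ⟨⟨M, hZ, _⟩, hm⟩ => ⟨⟨M⟩, hZ, hm⟩
  exact P221.H509.stThick_of_thick (thick_of_fl b E hL hco hC hY hm₀ hF
    (fun k => uu_P_bp hD hA hκ.mon b h𝒴 hm₀ hY hF k)
    (fun k => uu_unit_bp hD hκ.mon h𝒴 hm₀ hY hF k))

end st

/-- **the final theorem of the integral version** -/
theorem thick_of_ev {T : SHCat} {S : Susp T} {p n : ℕ} (hp : p.Prime) {B X M : T.C} {f : X ⟶ M}
    (hB : StI.IsStandardForm S p n B) (hX : StI.IsFpType S p n X) (hf : StI.EvIso f)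
    (hM : StI.ThickOf (StI.IsGen S p n) M) : StI.ThickOf (fun Y : T.C => Y = B) X := by
  have : Fact p.Prime := ⟨hp⟩
  exact Loc.result_of_ext hp (hExt S p n) hB hX hf hM

end Vale.Agent.P221.E.H509
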