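import Vale.Agent.P221.E.H903.Iff
import Vale.Agent.P221.E.H658.FpConv

/-!
# P221 (helper509): the characterisation, unconditional form
-/

set_option linter.unusedSectionVars false

noncomputable section

namespace Vale.Agent.P221.E.H509

open Vale.Agent.P251.St Vale.Agent.P251.St.SHCat

variable {T : SHCat} {S : Susp T} {p n : ℕ}

theorem fpConv (hp : p.Prime) : H903.FpConv S p n :=
  fun _ hY _ _ _ _ hφ _ hV => H658.totallyFinite_of_isBPFinite hp hY hφ hV

theorem thick_iff (hp : p.Prime) {B X : T.C} (hB : StI.IsStandardForm S p n B)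
    (hX : StI.IsFpType S p n X) :
    StI.ThickOf (fun Y : T.C => Y = B) X ↔
      ∃ (M : T.C) (f : Hom X M), StI.EvIso f ∧ StI.ThickOf (StI.IsGen S p n) M :=
  H903.thickOf_iff hp (fpConv hp) hB hX

end Vale.Agent.P221.E.H509
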